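import Mathlib

/-!
The Gaussian energy inequality of Maurey and Pisier for Lipschitz functions: the mean of
`|g X - g Y| ^ p` is at most a constant times the `p`-th power of the Lipschitz constant, whatever
the dimension.
-/

namespace Vale.Agent.P249.Lower

open MeasureTheory ProbabilityTheory Real
open scoped ENNReal NNReal ContDiff Convolution RealInnerProductSpace

variable {E : Type*} [NormedAddCommGroup E] [InnerProductSpace ℝ E] [FiniteDimensional ℝ E]
  [MeasurableSpace E] [BorelSpace E]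

/-- The absolute `p`-th moment of a standard normal variable. -/
noncomputable def normalMoment (p : ℝ) : ℝ := ∫ z, |z| ^ p ∂gaussianReal 0 1

lemma normalMoment_integrable {p : ℝ} (hp : 0 < p) :
    Integrable (fun z : ℝ => |z| ^ p) (gaussianReal 0 1) := by
  have h := (memLp_id_gaussianReal' (μ := 0) (v := 1) (ENNReal.ofReal p)
    ENNReal.ofReal_ne_top).integrable_norm_rpow
    (by simpa using hp) ENNReal.ofReal_ne_top
  simpa [ENNReal.toReal_ofReal hp.le] using h

lemma normalMoment_nonneg (p : ℝ) : 0 ≤ normalMoment p :=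
  integral_nonneg fun _ => Real.rpow_nonneg (abs_nonneg _) _

/-- The `p`-th moment of a linear functional under the standard Gaussian measure. -/
lemma lintegral_dual {p : ℝ} (hp : 0 < p) (L : StrongDual ℝ E) :
    ∫⁻ y, ENNReal.ofReal (|L y| ^ p) ∂stdGaussian E
      = ENNReal.ofReal (‖L‖ ^ p * normalMoment p) := by
  have hmap : (stdGaussian E).map L = (gaussianReal 0 1).map (‖L‖ * ·) := by
    rw [IsGaussian.map_eq_gaussianReal, gaussianReal_map_const_mul, mul_zero, mul_one,
      integral_strongDual_stdGaussian, variance_dual_stdGaussian]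
    congr 1
    ext
    rw [Real.coe_toNNReal _ (sq_nonneg _)]
    rfl
  have hm : Measurable fun z : ℝ => ENNReal.ofReal (|z| ^ p) :=
    ((continuous_abs.rpow_const fun _ => Or.inr hp.le).measurable).ennreal_ofReal
  rw [← lintegral_map hm L.continuous.measurable, hmap, lintegral_map hm (by fun_prop)]
  simp only [abs_mul, abs_norm, Real.mul_rpow (norm_nonneg L) (abs_nonneg _)]
  rw [normalMoment, ← integral_const_mul, ofReal_integral_eq_lintegral_ofReal
    ((normalMoment_integrable hp).const_mul _) (ae_of_all _ fun z => by positivity)]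

omit [FiniteDimensional ℝ E] [MeasurableSpace E] [BorelSpace E] in
/-- The `p`-th power of the difference along the quarter circle from `b` to `a`. -/
lemma arc_bound {p : ℝ} (hp : 1 ≤ p) {G : E → ℝ} (hG : ContDiff ℝ 1 G) (a b : E) :
    ENNReal.ofReal (|G a - G b| ^ p) ≤ ENNReal.ofReal ((π / 2) ^ (p - 1)) *
      ∫⁻ θ in Set.Ioc (0 : ℝ) (π / 2), ENNReal.ofReal
        (|fderiv ℝ G (cos θ • b + sin θ • a) (-sin θ • b + cos θ • a)| ^ p) := by
  have hT : (0 : ℝ) < π / 2 := by positivity
  obtain ⟨h, hh⟩ : ∃ h : ℝ → ℝ, h = fun θ =>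
      fderiv ℝ G (cos θ • b + sin θ • a) (-sin θ • b + cos θ • a) := ⟨_, rfl⟩
  have hc : Continuous h := by
    rw [hh]; exact ((hG.continuous_fderiv one_ne_zero).comp (by fun_prop)).clm_apply (by fun_prop)
  have hder : ∀ θ, HasDerivAt (fun θ => G (cos θ • b + sin θ • a)) (h θ) θ := fun θ => by
    rw [hh]
    exact ((hG.differentiable one_ne_zero _).hasFDerivAt).comp_hasDerivAt θ
      (((hasDerivAt_cos θ).smul_const b).add ((hasDerivAt_sin θ).smul_const a))
  have hftc : ∫ θ in (0 : ℝ)..(π / 2), h θ = G a - G b := by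
    rw [intervalIntegral.integral_eq_sub_of_hasDerivAt (fun θ _ => hder θ)
      (hc.intervalIntegrable _ _)]
    simp
  have habs : |G a - G b| ≤ ∫ θ in Set.Ioc (0 : ℝ) (π / 2), |h θ| := by
    rw [← hftc, intervalIntegral.integral_of_le hT.le]
    exact abs_integral_le_integral_abs
  have hcp : Continuous fun θ => |h θ| ^ p :=
    hc.abs.rpow_const fun _ => Or.inr (by linarith)
  have hμ : volume (Set.Ioc (0 : ℝ) (π / 2)) = ENNReal.ofReal (π / 2) := by simp
  have hJ := (convexOn_rpow hp).map_set_average_le (μ := volume)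
    (Real.continuous_rpow_const (by linarith)).continuousOn isClosed_Ici
    (t := Set.Ioc (0 : ℝ) (π / 2)) (f := fun θ => |h θ|)
    (by rw [hμ]; simp [hT]) (by rw [hμ]; exact ENNReal.ofReal_ne_top)
    (ae_of_all _ fun θ => Set.mem_Ici.2 (abs_nonneg _))
    (hc.abs.integrableOn_Ioc) (hcp.integrableOn_Ioc)
  simp only [setAverage_eq, smul_eq_mul, Measure.real, hμ, ENNReal.toReal_ofReal hT.le] at hJ
  have hI : 0 ≤ ∫ θ in Set.Ioc (0 : ℝ) (π / 2), |h θ| := integral_nonneg fun _ => abs_nonneg _
  rw [Real.mul_rpow (by positivity) hI] at hJ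
  have key : |G a - G b| ^ p
      ≤ (π / 2) ^ (p - 1) * ∫ θ in Set.Ioc (0 : ℝ) (π / 2), |h θ| ^ p := by
    refine (Real.rpow_le_rpow (abs_nonneg _) habs (by linarith)).trans ?_
    have := mul_le_mul_of_nonneg_left hJ (show 0 ≤ (π / 2) ^ p by positivity)
    rw [← mul_assoc, ← Real.mul_rpow hT.le (by positivity), mul_inv_cancel₀ hT.ne',
      Real.one_rpow, one_mul, ← mul_assoc] at this
    rw [Real.rpow_sub_one hT.ne', div_eq_mul_inv]
    exact this
  refine (ENNReal.ofReal_le_ofReal key).trans (le_of_eq ?_)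
  rw [ENNReal.ofReal_mul (by positivity), ofReal_integral_eq_lintegral_ofReal hcp.integrableOn_Ioc
    (ae_of_all _ fun θ => Real.rpow_nonneg (abs_nonneg _) _)]
  simp only [hh]

/-- The moment of the derivative at an independent point. -/
lemma deriv_energy {p : ℝ} (hp : 1 ≤ p) {G : E → ℝ} (hG : ContDiff ℝ 1 G) {L : ℝ}
    (hL : ∀ x, ‖fderiv ℝ G x‖ ≤ L) :
    ∫⁻ w, ENNReal.ofReal (|fderiv ℝ G w.1 w.2| ^ p) ∂(stdGaussian E).prod (stdGaussian E)
      ≤ ENNReal.ofReal (L ^ p * normalMoment p) := by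
  have hp0 : 0 < p := by linarith
  have hcont : Continuous fun w : E × E => |fderiv ℝ G w.1 w.2| ^ p :=
    (((hG.continuous_fderiv one_ne_zero).comp continuous_fst).clm_apply continuous_snd).abs.rpow_const
      fun _ => Or.inr hp0.le
  rw [lintegral_prod _ hcont.measurable.ennreal_ofReal.aemeasurable]
  calc ∫⁻ x, ∫⁻ y, ENNReal.ofReal (|fderiv ℝ G x y| ^ p) ∂stdGaussian E ∂stdGaussian E
      ≤ ∫⁻ _, ENNReal.ofReal (L ^ p * normalMoment p) ∂stdGaussian E := lintegral_mono fun x => by
        beta_reduce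
        rw [lintegral_dual hp0]
        exact ENNReal.ofReal_le_ofReal (mul_le_mul_of_nonneg_right
          (Real.rpow_le_rpow (norm_nonneg _) (hL x) hp0.le) (normalMoment_nonneg p))
    _ = _ := by rw [lintegral_const, measure_univ, mul_one]

/-- Rotation invariance, at one angle. -/
lemma rotation_lintegral (θ : ℝ) {Φ : E × E → ℝ≥0∞} (hΦ : Measurable Φ) :
    ∫⁻ z : E × E, Φ (cos θ • z.1 + sin θ • z.2, -sin θ • z.1 + cos θ • z.2)
        ∂(stdGaussian E).prod (stdGaussian E)
      = ∫⁻ w, Φ w ∂(stdGaussian E).prod (stdGaussian E) := by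
  conv_rhs => rw [← IsGaussian.map_rotation_eq_self (μ := stdGaussian E)
    (integral_id_stdGaussian (E := E)) θ]
  rw [lintegral_map hΦ (ContinuousLinearMap.rotation θ).continuous.measurable]
  simp only [ContinuousLinearMap.rotation_apply]

/-- The energy inequality for a continuously differentiable function. -/
lemma energy_smooth {p : ℝ} (hp : 1 ≤ p) {G : E → ℝ} (hG : ContDiff ℝ 1 G) {L : ℝ}
    (hL : ∀ x, ‖fderiv ℝ G x‖ ≤ L) :
    ∫⁻ z, ENNReal.ofReal (|G z.1 - G z.2| ^ p) ∂(stdGaussian E).prod (stdGaussian E)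
      ≤ ENNReal.ofReal ((π / 2) ^ p * (L ^ p * normalMoment p)) := by
  have hT : (0 : ℝ) < π / 2 := by positivity
  have hp0 : 0 < p := by linarith
  have hM : 0 ≤ L ^ p * normalMoment p :=
    mul_nonneg (Real.rpow_nonneg ((norm_nonneg _).trans (hL 0)) _) (normalMoment_nonneg p)
  obtain ⟨γ, hγ⟩ : ∃ γ : Measure (E × E), γ = (stdGaussian E).prod (stdGaussian E) := ⟨_, rfl⟩
  obtain ⟨F, hF⟩ : ∃ F : E × E → ℝ → ℝ≥0∞, F = fun z θ => ENNReal.ofReal
      (|fderiv ℝ G (cos θ • z.1 + sin θ • z.2) (-sin θ • z.1 + cos θ • z.2)| ^ p) := ⟨_, rfl⟩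
  have hFm : Measurable (Function.uncurry F) := by
    rw [hF]
    refine Measurable.ennreal_ofReal ?_
    refine (Continuous.rpow_const (Continuous.abs ?_) fun _ => Or.inr hp0.le).measurable
    exact ((hG.continuous_fderiv one_ne_zero).comp (by fun_prop)).clm_apply (by fun_prop)
  have hc : Continuous fun w : E × E => |fderiv ℝ G w.1 w.2| ^ p :=
    (((hG.continuous_fderiv one_ne_zero).comp continuous_fst).clm_apply continuous_snd).abs.rpow_const
      fun _ => Or.inr hp0.le
  have hθ : ∀ θ, ∫⁻ z, F z θ ∂γ ≤ ENNReal.ofReal (L ^ p * normalMoment p) := fun θ => by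
    rw [hγ, hF]
    exact (le_of_eq (rotation_lintegral θ hc.measurable.ennreal_ofReal)).trans (deriv_energy hp hG hL)
  have hpt : ∀ z : E × E, ENNReal.ofReal (|G z.1 - G z.2| ^ p)
      ≤ ENNReal.ofReal ((π / 2) ^ (p - 1)) * ∫⁻ θ in Set.Ioc (0 : ℝ) (π / 2), F z θ := fun z => by
    rw [abs_sub_comm, hF]
    exact arc_bound hp hG z.2 z.1
  rw [← hγ]
  refine (lintegral_mono hpt).trans ?_
  have : SFinite γ := by rw [hγ]; infer_instance
  rw [lintegral_const_mul' _ _ ENNReal.ofReal_ne_top, lintegral_lintegral_swap hFm.aemeasurable]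
  refine (mul_le_mul' le_rfl (lintegral_mono hθ)).trans_eq ?_
  rw [setLIntegral_const, Real.volume_Ioc, sub_zero, ← ENNReal.ofReal_mul hM,
    ← ENNReal.ofReal_mul (by positivity), Real.rpow_sub_one hT.ne']
  congr 1
  field_simp

/-- A Lipschitz function is close to a smooth function with the same Lipschitz constant. -/
lemma exists_smooth_near {g : E → ℝ} {K : ℝ≥0} (hg : LipschitzWith K g) :
    ∃ G : E → ℝ, ContDiff ℝ 1 G ∧ LipschitzWith K G ∧ ∀ x, |G x - g x| ≤ K := by
  obtain ⟨φ, hφ⟩ : ∃ φ : ContDiffBump (0 : E), φ.rOut = 1 :=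
    ⟨⟨1 / 2, 1, by norm_num, by norm_num⟩, rfl⟩
  refine ⟨φ.normed volume ⋆[ContinuousLinearMap.lsmul ℝ ℝ, volume] g,
    φ.hasCompactSupport_normed.contDiff_convolution_left _ φ.contDiff_normed
      hg.continuous.locallyIntegrable, ?_, fun x => ?_⟩
  · refine LipschitzWith.of_dist_le_mul fun x y => ?_
    have hi : ∀ x, Integrable (fun t => φ.normed volume t * g (x - t)) volume := fun x =>
      (φ.continuous_normed.mul (hg.continuous.comp (by fun_prop))).integrable_of_hasCompactSupport
        φ.hasCompactSupport_normed.mul_right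
    simp only [Real.dist_eq, MeasureTheory.convolution_def, ContinuousLinearMap.lsmul_apply,
      smul_eq_mul]
    rw [← integral_sub (hi x) (hi y)]
    rw [← Real.norm_eq_abs]
    refine (norm_integral_le_of_norm_le
      (g := fun t => φ.normed volume t * ((K : ℝ) * dist x y)) (φ.integrable_normed.mul_const _)
      (ae_of_all _ fun t => ?_)).trans_eq ?_
    · rw [← mul_sub, Real.norm_eq_abs, abs_mul, abs_of_nonneg (φ.nonneg_normed t)]
      refine mul_le_mul_of_nonneg_left ?_ (φ.nonneg_normed t)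
      simpa [Real.dist_eq] using hg.dist_le_mul (x - t) (y - t)
    · rw [integral_mul_const, φ.integral_normed, one_mul]
  · rw [← Real.dist_eq]
    refine φ.dist_normed_convolution_le hg.continuous.aestronglyMeasurable fun y hy => ?_
    refine (hg.dist_le_mul y x).trans (mul_le_of_le_one_right K.2 ?_)
    rw [hφ, Metric.mem_ball] at hy
    exact hy.le

/-- The energy inequality for a Lipschitz function. -/
theorem energy_lipschitz {p : ℝ} (hp : 1 ≤ p) {g : E → ℝ} {K : ℝ≥0} (hg : LipschitzWith K g) :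
    ∫⁻ z, ENNReal.ofReal (|g z.1 - g z.2| ^ p) ∂(stdGaussian E).prod (stdGaussian E)
      ≤ ENNReal.ofReal (2 ^ p * ((π / 2) ^ p * normalMoment p + 2 ^ p) * (K : ℝ) ^ p) := by
  have hp0 : 0 < p := by linarith
  have hM := normalMoment_nonneg p
  obtain ⟨G, hG, hGL, hGg⟩ := exists_smooth_near hg
  have hd : ∀ x, ‖fderiv ℝ G x‖ ≤ K := fun x => norm_fderiv_le_of_lipschitz ℝ hGL
  have hpt : ∀ z : E × E, ENNReal.ofReal (|g z.1 - g z.2| ^ p)
      ≤ ENNReal.ofReal (2 ^ p) * ENNReal.ofReal (|G z.1 - G z.2| ^ p)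
        + ENNReal.ofReal (2 ^ p * (2 * (K : ℝ)) ^ p) := fun z => by
    rw [← ENNReal.ofReal_mul (by positivity), ← ENNReal.ofReal_add (by positivity) (by positivity)]
    refine ENNReal.ofReal_le_ofReal ?_
    have h1 := hGg z.1
    have h2 := hGg z.2
    have hb : |g z.1 - g z.2| ≤ |G z.1 - G z.2| + 2 * (K : ℝ) := by
      have := abs_sub_le (g z.1) (G z.1) (g z.2)
      have := abs_sub_le (G z.1) (G z.2) (g z.2)
      rw [abs_sub_comm (g z.1) (G z.1)] at *
      linarith
    rw [← mul_add]
    calc |g z.1 - g z.2| ^ p ≤ (2 * max |G z.1 - G z.2| (2 * (K : ℝ))) ^ p :=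
          Real.rpow_le_rpow (abs_nonneg _) (by
            linarith [le_max_left |G z.1 - G z.2| (2 * (K : ℝ)),
              le_max_right |G z.1 - G z.2| (2 * (K : ℝ))]) hp0.le
      _ ≤ _ := by
          rw [Real.mul_rpow zero_le_two ((abs_nonneg _).trans (le_max_left _ _))]
          refine mul_le_mul_of_nonneg_left ?_ (by positivity)
          rcases max_cases |G z.1 - G z.2| (2 * (K : ℝ)) with ⟨e, -⟩ | ⟨e, -⟩ <;> rw [e]
          · exact le_add_of_nonneg_right (by positivity)
          · exact le_add_of_nonneg_left (by positivity)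
  refine (lintegral_mono hpt).trans ?_
  rw [lintegral_add_right _ measurable_const, lintegral_const_mul' _ _ ENNReal.ofReal_ne_top,
    lintegral_const, measure_univ, mul_one]
  refine (add_le_add (mul_le_mul' le_rfl (energy_smooth hp hG hd)) le_rfl).trans_eq ?_
  rw [← ENNReal.ofReal_mul (by positivity), ← ENNReal.ofReal_add (by positivity) (by positivity)]
  congr 1
  rw [Real.mul_rpow (x := (2 : ℝ)) (y := (K : ℝ)) zero_le_two K.2]
  ring

end Vale.Agent.P249.Lower
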