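import Mathlib
import Vale.Agent.P249.Lower.GaussEnergy

/-!
The rounded cube: every map of the grid of mesh `1/s` in `[-1,1]^k` into `ℓ_p^d` with distortion
`D` needs `d` at least a constant times `k ^ (p/2) / D ^ p`.
-/

namespace Vale.Agent.P249.Lower

open MeasureTheory ProbabilityTheory Real Finset
open scoped ENNReal NNReal

/-- Clamping to `[-1,1]`. -/
noncomputable def clip (a : ℝ) : ℝ := max (-1) (min a 1)

lemma clip_mem (a : ℝ) : clip a ∈ Set.Icc (-1 : ℝ) 1 :=
  ⟨le_max_left _ _, max_le (by norm_num) (min_le_right _ _)⟩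

lemma clip_of_one_le {a : ℝ} (h : 1 ≤ a) : clip a = 1 := by
  rw [clip, min_eq_right h, max_eq_right (by norm_num)]

lemma clip_of_le_neg_one {a : ℝ} (h : a ≤ -1) : clip a = -1 := by
  rw [clip, min_eq_left (by linarith), max_eq_left h]

@[fun_prop]
lemma continuous_clip : Continuous clip := by unfold clip; fun_prop

lemma abs_clip_sub (a b : ℝ) : |clip a - clip b| ≤ |a - b| := by
  refine (abs_max_sub_max_le_max _ _ _ _).trans (max_le (by simp) ?_)
  exact (abs_min_sub_min_le_max _ _ _ _).trans (max_le le_rfl (by simp))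

variable {k : ℕ}

/-- Clamping every coordinate. -/
noncomputable def clipMap (x : EuclideanSpace ℝ (Fin k)) : EuclideanSpace ℝ (Fin k) :=
  WithLp.toLp 2 fun i => clip (x i)

@[simp] lemma clipMap_apply (x : EuclideanSpace ℝ (Fin k)) (i : Fin k) :
    clipMap x i = clip (x i) := rfl

lemma lipschitz_clipMap : LipschitzWith 1 (clipMap (k := k)) := by
  refine LipschitzWith.of_dist_le_mul fun x y => ?_
  rw [NNReal.coe_one, one_mul, EuclideanSpace.dist_eq, EuclideanSpace.dist_eq]
  refine Real.sqrt_le_sqrt (sum_le_sum fun i _ => ?_)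
  rw [Real.dist_eq, Real.dist_eq]
  exact pow_le_pow_left₀ (abs_nonneg _) (abs_clip_sub _ _) 2

/-- The grid points of mesh `1/s` in the cube. -/
noncomputable def gridPt (s : ℕ) (j : Fin k → Fin (2 * s + 1)) : EuclideanSpace ℝ (Fin k) :=
  WithLp.toLp 2 fun i => ((j i : ℕ) : ℝ) / s - 1

@[simp] lemma gridPt_apply (s : ℕ) (j : Fin k → Fin (2 * s + 1)) (i : Fin k) :
    gridPt s j i = ((j i : ℕ) : ℝ) / s - 1 := rfl

/-- The grid point below a point of the cube. -/
noncomputable def roundPt (s : ℕ) (x : EuclideanSpace ℝ (Fin k)) : Fin k → Fin (2 * s + 1) :=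
  fun i => ⟨⌊(clip (x i) + 1) * s⌋₊, by
    have h1 : (clip (x i) + 1) * s ≤ ((2 * s : ℕ) : ℝ) := by
      push_cast
      exact mul_le_mul_of_nonneg_right (by linarith [(clip_mem (x i)).2]) (Nat.cast_nonneg _)
    exact Nat.lt_succ_of_le (Nat.floor_le_of_le h1)⟩

lemma dist_clipMap_round {s : ℕ} (hs : 0 < s) (hks : Real.sqrt k ≤ s)
    (x : EuclideanSpace ℝ (Fin k)) : dist (clipMap x) (gridPt s (roundPt s x)) ≤ 1 := by
  have hs' : (0 : ℝ) < s := by exact_mod_cast hs
  rw [EuclideanSpace.dist_eq]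
  refine (Real.sqrt_le_sqrt (sum_le_sum fun i _ => (?_ : _ ≤ (1 / (s : ℝ)) ^ 2))).trans ?_
  · rw [Real.dist_eq, sq_abs]
    refine sq_le_sq' ?_ ?_
    all_goals
      have h0 : 0 ≤ (clip (x i) + 1) * (s : ℝ) :=
        mul_nonneg (by linarith [(clip_mem (x i)).1]) hs'.le
      have h1 := Nat.floor_le h0
      have h2 := Nat.lt_floor_add_one ((clip (x i) + 1) * (s : ℝ))
      have e : clipMap x i - gridPt s (roundPt s x) i
          = ((clip (x i) + 1) * (s : ℝ) - (⌊(clip (x i) + 1) * (s : ℝ)⌋₊ : ℝ)) / s := by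
        rw [clipMap_apply, gridPt_apply, sub_div, mul_div_cancel_right₀ _ hs'.ne']
        show clip (x i) - ((⌊(clip (x i) + 1) * (s : ℝ)⌋₊ : ℝ) / s - 1) = _
        ring
      rw [e]
    · rw [neg_le, ← neg_div, div_le_div_iff_of_pos_right hs']
      linarith
    · rw [div_le_div_iff_of_pos_right hs']
      linarith
  · rw [sum_const, card_univ, Fintype.card_fin, nsmul_eq_mul, Real.sqrt_mul (Nat.cast_nonneg k),
      Real.sqrt_sq (by positivity), mul_one_div, div_le_one hs']
    exact hks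

/-- The mean squared spread of a clamped standard normal variable. -/
noncomputable def clipSpread : ℝ :=
  ∫ z, (clip z.1 - clip z.2) ^ 2 ∂(gaussianReal 0 1).prod (gaussianReal 0 1)

lemma clip_sq_le (a b : ℝ) : (clip a - clip b) ^ 2 ≤ 4 := by
  rw [← sq_abs]
  have h : |clip a - clip b| ≤ 2 := abs_sub_le_iff.2
    ⟨by linarith [(clip_mem a).2, (clip_mem b).1], by linarith [(clip_mem b).2, (clip_mem a).1]⟩
  exact (pow_le_pow_left₀ (abs_nonneg _) h 2).trans_eq (by norm_num)

lemma clipSpread_pos : 0 < clipSpread := by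
  have hint : Integrable (fun z : ℝ × ℝ => (clip z.1 - clip z.2) ^ 2)
      ((gaussianReal 0 1).prod (gaussianReal 0 1)) :=
    Integrable.of_bound (by fun_prop) 4 (ae_of_all _ fun z => by
      rw [Real.norm_eq_abs, abs_of_nonneg (sq_nonneg _)]; exact clip_sq_le _ _)
  rw [clipSpread, integral_pos_iff_support_of_nonneg (fun z => sq_nonneg _) hint]
  refine lt_of_lt_of_le ?_ (measure_mono (s := Set.Ioi (1 : ℝ) ×ˢ Set.Iio (-1 : ℝ)) ?_)
  · rw [Measure.prod_prod]
    refine ENNReal.mul_pos (fun h => ?_) (fun h => ?_)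
    · simpa using gaussianReal_absolutelyContinuous' 0 one_ne_zero h
    · simpa using gaussianReal_absolutelyContinuous' 0 one_ne_zero h
  · rintro ⟨a, b⟩ ⟨ha, hb⟩
    simp only [Function.mem_support]
    rw [clip_of_one_le (le_of_lt ha), clip_of_le_neg_one (le_of_lt hb)]
    norm_num

lemma map_coord (i : Fin k) : (stdGaussian (EuclideanSpace ℝ (Fin k))).map (fun x => x i)
    = gaussianReal 0 1 := by
  rw [← map_pi_eq_stdGaussian, Measure.map_map (by fun_prop) (by fun_prop)]
  exact (measurePreserving_eval (fun _ : Fin k => gaussianReal 0 1) i).map_eq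

/-- The clamped Gaussian pairs are far apart. -/
lemma spread_lower {p : ℝ} (hp : 2 ≤ p) :
    ((k : ℝ) * clipSpread) ^ (p / 2) ≤
      ∫ z, dist (clipMap z.1) (clipMap z.2) ^ p
        ∂(stdGaussian (EuclideanSpace ℝ (Fin k))).prod (stdGaussian (EuclideanSpace ℝ (Fin k))) := by
  obtain ⟨γ, hγ⟩ : ∃ γ, γ = stdGaussian (EuclideanSpace ℝ (Fin k)) := ⟨_, rfl⟩
  have : IsProbabilityMeasure γ := by rw [hγ]; infer_instance
  obtain ⟨a, ha⟩ : ∃ a : EuclideanSpace ℝ (Fin k) × EuclideanSpace ℝ (Fin k) → ℝ,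
      a = fun z => ∑ i, (clip (z.1 i) - clip (z.2 i)) ^ 2 := ⟨_, rfl⟩
  have ha0 : ∀ z, 0 ≤ a z := fun z => by rw [ha]; exact sum_nonneg fun i _ => sq_nonneg _
  have ha4 : ∀ z, a z ≤ 4 * k := fun z => by
    rw [ha]
    exact (sum_le_sum fun i _ => clip_sq_le _ _).trans_eq (by simp [mul_comm])
  have hac : Continuous a := by rw [ha]; fun_prop
  have hpow : ∀ z, a z ^ (p / 2) = dist (clipMap z.1) (clipMap z.2) ^ p := fun z => by
    rw [EuclideanSpace.dist_eq, Real.sqrt_eq_rpow, ← Real.rpow_mul (sum_nonneg fun i _ => sq_nonneg _),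
      show 1 / 2 * p = p / 2 by ring, ha]
    simp [Real.dist_eq, sq_abs]
  have hmean : ∫ z, a z ∂γ.prod γ = k * clipSpread := by
    have hi : ∀ i : Fin k, ∫ z, (clip (z.1 i) - clip (z.2 i)) ^ 2 ∂γ.prod γ = clipSpread := fun i => by
      have hm : Measurable fun x : EuclideanSpace ℝ (Fin k) => x i := by fun_prop
      rw [clipSpread, ← map_coord i, ← hγ, Measure.map_prod_map _ _ hm hm,
        integral_map (hm.prodMap hm).aemeasurable (by fun_prop)]
      rfl
    rw [ha, integral_finsetSum _ fun i _ => Integrable.of_bound (by fun_prop) 4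
      (ae_of_all _ fun z => by
        rw [Real.norm_eq_abs, abs_of_nonneg (sq_nonneg _)]; exact clip_sq_le _ _)]
    simp [hi]
  rw [← hγ, ← hmean]
  simp only [← hpow]
  refine (convexOn_rpow (by linarith)).map_integral_le
    (Real.continuous_rpow_const (by linarith)).continuousOn isClosed_Ici (ae_of_all _ ha0) ?_ ?_
  · exact Integrable.of_bound (by fun_prop) (4 * k) (ae_of_all _ fun z => by
      rw [Real.norm_eq_abs, abs_of_nonneg (ha0 z)]; exact ha4 z)
  · refine Integrable.of_bound ((hac.rpow_const fun _ => Or.inr (by linarith)).aestronglyMeasurable)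
      ((4 * (k : ℝ)) ^ (p / 2)) (ae_of_all _ fun z => ?_)
    simp only [Function.comp_apply, Real.norm_eq_abs, abs_of_nonneg (Real.rpow_nonneg (ha0 z) _)]
    exact Real.rpow_le_rpow (ha0 z) (ha4 z) (by linarith)

lemma add_rpow_le_two {a b p : ℝ} (ha : 0 ≤ a) (hb : 0 ≤ b) (hp : 0 ≤ p) :
    (a + b) ^ p ≤ 2 ^ p * (a ^ p + b ^ p) := by
  rcases le_total a b with h | h
  · refine (Real.rpow_le_rpow (by linarith) (show a + b ≤ 2 * b by linarith) hp).trans ?_
    rw [Real.mul_rpow zero_le_two hb]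
    gcongr
    exact le_add_of_nonneg_left (by positivity)
  · refine (Real.rpow_le_rpow (by linarith) (show a + b ≤ 2 * a by linarith) hp).trans ?_
    rw [Real.mul_rpow zero_le_two ha]
    gcongr
    exact le_add_of_nonneg_right (by positivity)

/-- The constant of the lower bound. -/
noncomputable def lowerConst (p : ℝ) : ℝ :=
  2 ^ p * (2 ^ p * (2 ^ p * ((π / 2) ^ p * normalMoment p + 2 ^ p) + 2 ^ p) + 2 ^ p)

lemma lowerConst_pos (p : ℝ) : 0 < lowerConst p := by
  have := normalMoment_nonneg p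
  unfold lowerConst; positivity

/-- Every embedding of the grid needs dimension of order `k ^ (p/2) / D ^ p`. -/
theorem grid_lower {p D : ℝ} (hp : 2 ≤ p) (hD : 1 ≤ D) {s : ℕ} (hs : 0 < s)
    (hks : Real.sqrt k ≤ s) {d : ℕ} (hd : 0 < d)
    (f : (Fin k → Fin (2 * s + 1)) → Fin d → ℝ) {σ : ℝ} (hσ : 0 < σ)
    (hf : ∀ i j, σ * dist (gridPt s i) (gridPt s j) ≤ (∑ b, |f i b - f j b| ^ p) ^ (1 / p) ∧
      (∑ b, |f i b - f j b| ^ p) ^ (1 / p) ≤ D * σ * dist (gridPt s i) (gridPt s j)) :
    ((k : ℝ) * clipSpread) ^ (p / 2) ≤ lowerConst p * D ^ p * d := by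
  have hp0 : 0 < p := by linarith
  have hDσ : 0 ≤ D * σ := by positivity
  have hs' : (0 : ℝ) < s := by exact_mod_cast hs
  have hinj : Function.Injective (gridPt (k := k) s) := fun i j h => funext fun c => Fin.ext (by
    have := congrArg (fun v : EuclideanSpace ℝ (Fin k) => v c) h
    simp only [gridPt_apply, sub_left_inj, div_left_inj' hs'.ne'] at this
    exact_mod_cast this)
  have hnn : ∀ i j, 0 ≤ ∑ b, |f i b - f j b| ^ p := fun i j =>
    sum_nonneg fun b _ => Real.rpow_nonneg (abs_nonneg _) p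
  -- Lipschitz extension of every coordinate
  have hext : ∀ b, ∃ g : EuclideanSpace ℝ (Fin k) → ℝ,
      LipschitzWith (D * σ).toNNReal g ∧ ∀ j, g (gridPt s j) = f j b := fun b => by
    obtain ⟨h, hh⟩ : ∃ h : EuclideanSpace ℝ (Fin k) → ℝ,
        h = fun v => f (Function.invFun (gridPt s) v) b := ⟨_, rfl⟩
    have he : ∀ j, h (gridPt s j) = f j b := fun j => by
      rw [hh]; simp only [Function.leftInverse_invFun hinj j]
    have hl : LipschitzOnWith (D * σ).toNNReal h (Set.range (gridPt s)) := by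
      refine LipschitzOnWith.of_dist_le_mul ?_
      rintro _ ⟨i, rfl⟩ _ ⟨j, rfl⟩
      rw [he, he, Real.coe_toNNReal _ hDσ, Real.dist_eq]
      refine le_trans ?_ (hf i j).2
      calc |f i b - f j b| = (|f i b - f j b| ^ p) ^ (1 / p) := by
            rw [← Real.rpow_mul (abs_nonneg _), mul_one_div_cancel hp0.ne', Real.rpow_one]
        _ ≤ _ := Real.rpow_le_rpow (Real.rpow_nonneg (abs_nonneg _) p)
            (single_le_sum (f := fun b => |f i b - f j b| ^ p)
              (fun b _ => Real.rpow_nonneg (abs_nonneg _) p) (mem_univ b)) (by positivity)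
    obtain ⟨g, hg, hgh⟩ := hl.extend_real
    exact ⟨g, hg, fun j => by rw [← hgh ⟨j, rfl⟩, he]⟩
  choose g hg hgf using hext
  obtain ⟨G, hG⟩ : ∃ G : Fin d → EuclideanSpace ℝ (Fin k) → ℝ,
      G = fun b x => g b (clipMap x) := ⟨_, rfl⟩
  have hGlip : ∀ b, LipschitzWith (D * σ).toNNReal (G b) := fun b => by
    rw [hG]; exact mul_one (D * σ).toNNReal ▸ (hg b).comp lipschitz_clipMap
  have hnear : ∀ b x, |G b x - f (roundPt s x) b| ≤ D * σ := fun b x => by
    rw [hG, ← hgf, ← Real.dist_eq]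
    refine ((hg b).dist_le_mul _ _).trans ?_
    rw [Real.coe_toNNReal _ hDσ]
    exact mul_le_of_le_one_right hDσ (dist_clipMap_round hs hks x)
  -- the pointwise inequality
  have hpt : ∀ x y, σ ^ p * dist (clipMap x) (clipMap y) ^ p ≤
      2 ^ p * ((2 ^ p * ∑ b, |G b x - G b y| ^ p)
        + (d * (2 ^ p * (2 * (D * σ)) ^ p) + (2 * σ) ^ p)) := fun x y => by
    have h1 : dist (clipMap x) (clipMap y)
        ≤ dist (gridPt s (roundPt s x)) (gridPt s (roundPt s y)) + 2 := by
      have := dist_triangle4 (clipMap x) (gridPt s (roundPt s x)) (gridPt s (roundPt s y)) (clipMap y)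
      have := dist_clipMap_round hs hks x
      have := dist_clipMap_round hs hks y
      rw [dist_comm (clipMap y)] at this
      linarith
    have h2 : σ * dist (clipMap x) (clipMap y)
        ≤ (∑ b, |f (roundPt s x) b - f (roundPt s y) b| ^ p) ^ (1 / p) + 2 * σ := by
      have := (hf (roundPt s x) (roundPt s y)).1
      have := mul_le_mul_of_nonneg_left h1 hσ.le
      linarith
    rw [← Real.mul_rpow hσ.le dist_nonneg]
    refine ((Real.rpow_le_rpow (by positivity) h2 hp0.le).trans
      (add_rpow_le_two (Real.rpow_nonneg (hnn _ _) _) (by positivity) hp0.le)).trans ?_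
    rw [← Real.rpow_mul (hnn _ _), one_div_mul_cancel hp0.ne', Real.rpow_one]
    refine mul_le_mul_of_nonneg_left ?_ (by positivity)
    rw [← add_assoc]
    refine add_le_add ?_ le_rfl
    calc ∑ b, |f (roundPt s x) b - f (roundPt s y) b| ^ p
        ≤ ∑ b, 2 ^ p * (|G b x - G b y| ^ p + (2 * (D * σ)) ^ p) := sum_le_sum fun b _ => by
          refine (Real.rpow_le_rpow (abs_nonneg _) (?_ : _ ≤ |G b x - G b y| + 2 * (D * σ))
            hp0.le).trans (add_rpow_le_two (abs_nonneg _) (by positivity) hp0.le)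
          have := hnear b x
          have := hnear b y
          have := abs_sub_le (f (roundPt s x) b) (G b x) (f (roundPt s y) b)
          have := abs_sub_le (G b x) (G b y) (f (roundPt s y) b)
          rw [abs_sub_comm (f (roundPt s x) b) (G b x)] at *
          linarith
      _ = _ := by
          rw [← mul_sum, sum_add_distrib, sum_const, card_univ, Fintype.card_fin, nsmul_eq_mul]
          ring
  -- integrate
  obtain ⟨γ, hγ⟩ : ∃ γ, γ = stdGaussian (EuclideanSpace ℝ (Fin k)) := ⟨_, rfl⟩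
  have : IsProbabilityMeasure γ := by rw [hγ]; infer_instance
  have hGc : ∀ b, Continuous fun z : EuclideanSpace ℝ (Fin k) × EuclideanSpace ℝ (Fin k) =>
      |G b z.1 - G b z.2| ^ p := fun b =>
    ((((hGlip b).continuous.comp continuous_fst)).sub ((hGlip b).continuous.comp continuous_snd)).abs.rpow_const
      fun _ => Or.inr hp0.le
  have hEn : ∀ b, Integrable (fun z => |G b z.1 - G b z.2| ^ p) (γ.prod γ) ∧
      ∫ z, |G b z.1 - G b z.2| ^ p ∂γ.prod γ
        ≤ 2 ^ p * ((π / 2) ^ p * normalMoment p + 2 ^ p) * (D * σ) ^ p := fun b => by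
    have h := energy_lipschitz (show 1 ≤ p by linarith) (hGlip b)
    rw [← hγ, Real.coe_toNNReal _ hDσ] at h
    have h0 : 0 ≤ᵐ[γ.prod γ] fun z => |G b z.1 - G b z.2| ^ p :=
      ae_of_all _ fun z => Real.rpow_nonneg (abs_nonneg _) p
    refine ⟨(lintegral_ofReal_ne_top_iff_integrable (hGc b).aestronglyMeasurable h0).1
      (ne_top_of_le_ne_top ENNReal.ofReal_ne_top h), ?_⟩
    rw [integral_eq_lintegral_of_nonneg_ae h0 (hGc b).aestronglyMeasurable]
    refine ENNReal.toReal_le_of_le_ofReal ?_ h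
    have := normalMoment_nonneg p
    positivity
  have hI : Integrable (fun z => ∑ b, |G b z.1 - G b z.2| ^ p) (γ.prod γ) :=
    integrable_finsetSum _ fun b _ => (hEn b).1
  have hlow := mul_le_mul_of_nonneg_left (spread_lower (k := k) hp)
    (show 0 ≤ σ ^ p by positivity)
  rw [← hγ, ← integral_const_mul] at hlow
  have hkey := hlow.trans (integral_mono_of_nonneg (ae_of_all _ fun z => by positivity)
    (((hI.const_mul _).add (integrable_const _)).const_mul _) (ae_of_all _ fun z => hpt z.1 z.2))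
  rw [integral_const_mul, integral_add' (hI.const_mul _) (integrable_const _), integral_const_mul,
    integral_const, integral_finsetSum _ (fun b _ => (hEn b).1)] at hkey
  simp only [probReal_univ, smul_eq_mul, one_mul] at hkey
  have hsum := sum_le_sum fun b (_ : b ∈ (univ : Finset (Fin d))) => (hEn b).2
  rw [sum_const, card_univ, Fintype.card_fin, nsmul_eq_mul] at hsum
  refine le_of_mul_le_mul_left (hkey.trans ?_) (show 0 < σ ^ p by positivity)
  refine (mul_le_mul_of_nonneg_left (add_le_add (mul_le_mul_of_nonneg_left hsum (by positivity))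
    le_rfl) (by positivity)).trans ?_
  have hd1 : (1 : ℝ) ≤ D ^ p * d :=
    one_le_mul_of_one_le_of_one_le (Real.one_le_rpow hD hp0.le) (by exact_mod_cast hd)
  have h2 : 2 ^ p * (2 * σ) ^ p ≤ 2 ^ p * 2 ^ p * σ ^ p * (D ^ p * d) := by
    rw [Real.mul_rpow zero_le_two hσ.le, ← mul_assoc]
    exact le_mul_of_one_le_right (by positivity) hd1
  have eD : (D * σ) ^ p = D ^ p * σ ^ p := Real.mul_rpow (by linarith) hσ.le
  rw [eD, Real.mul_rpow (x := (2 : ℝ)) (y := D * σ) zero_le_two hDσ, eD]
  rw [lowerConst]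
  linarith

end Vale.Agent.P249.Lower
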