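import Mathlib
import Vale.Agent.P249.Lower.Grid

/-!
Hard subsets of `L_p` for `p > 2`: `n` points needing dimension of order
`(log n / log log n) ^ (p/2)` at a fixed distortion.
-/

namespace Vale.Agent.P249.Lower

open MeasureTheory ProbabilityTheory Real Finset Filter
open scoped ENNReal NNReal

lemma normalMoment_pos {p : ℝ} (hp : 0 < p) : 0 < normalMoment p := by
  rw [normalMoment, integral_pos_iff_support_of_nonneg
    (fun z => Real.rpow_nonneg (abs_nonneg _) _) (normalMoment_integrable hp)]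
  refine lt_of_lt_of_le ?_ (measure_mono (s := Set.Ioi (0 : ℝ)) fun z hz => ?_)
  · refine pos_iff_ne_zero.2 fun h => ?_
    simpa using gaussianReal_absolutelyContinuous' 0 one_ne_zero h
  · exact (Real.rpow_pos_of_pos (abs_pos.2 (ne_of_gt hz)) _).ne'

/-- The Gaussian functional attached to a vector. -/
noncomputable def gaussFun (p : ℝ) {k : ℕ} (x : EuclideanSpace ℝ (Fin k)) :
    StrongDual ℝ (EuclideanSpace ℝ (Fin k)) :=
  (normalMoment p ^ (1 / p))⁻¹ • innerSL ℝ x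

/-- Euclidean points as elements of `L_p` of the Gaussian measure. -/
noncomputable def toGauss (p : ℝ) {k : ℕ} (x : EuclideanSpace ℝ (Fin k)) :
    Lp ℝ (ENNReal.ofReal p) (stdGaussian (EuclideanSpace ℝ (Fin k))) :=
  (IsGaussian.memLp_dual (stdGaussian (EuclideanSpace ℝ (Fin k))) (gaussFun p x) (ENNReal.ofReal p)
    ENNReal.ofReal_ne_top).toLp _

/-- The embedding is isometric. -/
lemma dist_toGauss {p : ℝ} (hp : 1 ≤ p) {k : ℕ} (x y : EuclideanSpace ℝ (Fin k)) :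
    dist (toGauss p x) (toGauss p y) = dist x y := by
  have : Fact (1 ≤ ENNReal.ofReal p) := ⟨by simpa using hp⟩
  have hp0 : 0 < p := by linarith
  have hm := normalMoment_pos hp0
  rw [dist_eq_norm, toGauss, toGauss, ← MemLp.toLp_sub, Lp.norm_toLp,
    eLpNorm_eq_lintegral_rpow_enorm_toReal (ne_of_gt (ENNReal.ofReal_pos.2 hp0))
      ENNReal.ofReal_ne_top, ENNReal.toReal_ofReal hp0.le]
  have e : ∀ z, ‖(⇑(gaussFun p x) - ⇑(gaussFun p y)) z‖ₑ ^ p
      = ENNReal.ofReal (|gaussFun p (x - y) z| ^ p) := fun z => by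
    rw [Real.enorm_eq_ofReal_abs, ENNReal.ofReal_rpow_of_nonneg (abs_nonneg _) hp0.le, Pi.sub_apply]
    simp only [gaussFun, map_sub, smul_sub, sub_apply]
  simp only [e]
  rw [lintegral_dual hp0, ← ENNReal.toReal_rpow, ENNReal.toReal_ofReal (by positivity), gaussFun,
    norm_smul, innerSL_apply_norm, norm_inv, Real.norm_of_nonneg (by positivity),
    Real.mul_rpow (by positivity) (norm_nonneg _), Real.inv_rpow (by positivity),
    ← Real.rpow_mul hm.le, one_div_mul_cancel hp0.ne', Real.rpow_one]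
  rw [show (normalMoment p)⁻¹ * ‖x - y‖ ^ p * normalMoment p = ‖x - y‖ ^ p by field_simp,
    ← Real.rpow_mul (norm_nonneg _), mul_one_div_cancel hp0.ne', Real.rpow_one, dist_eq_norm]

lemma log_le_two_sqrt {x : ℝ} (hx : 0 < x) : Real.log x ≤ 2 * Real.sqrt x := by
  have h := Real.log_le_sub_one_of_pos (Real.sqrt_pos.2 hx)
  rw [Real.log_sqrt hx.le] at h
  linarith

/-- Facts on the chosen dimension of the cube. -/
lemma dimension_choice {ℓ : ℝ} (hℓ : 64 ≤ ℓ) :
    1 ≤ ⌊ℓ / (2 * Real.log ℓ)⌋₊ ∧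
      ℓ / Real.log ℓ / 4 ≤ (⌊ℓ / (2 * Real.log ℓ)⌋₊ : ℝ) ∧
      (⌊ℓ / (2 * Real.log ℓ)⌋₊ : ℝ) *
        Real.log (2 * (⌈Real.sqrt (⌊ℓ / (2 * Real.log ℓ)⌋₊ : ℝ)⌉₊ : ℝ) + 1) ≤ ℓ := by
  have hℓ0 : 0 < ℓ := by linarith
  have hL : 1 ≤ Real.log ℓ := by
    rw [Real.le_log_iff_exp_le hℓ0]
    linarith [Real.exp_one_lt_d9]
  obtain ⟨r, hr⟩ : ∃ r, r = ℓ / (2 * Real.log ℓ) := ⟨_, rfl⟩
  rw [← hr]
  have hr2 : 2 ≤ r := by
    rw [hr, le_div_iff₀ (by linarith)]
    have h8 : 8 ≤ Real.sqrt ℓ := Real.le_sqrt_of_sq_le (by linarith)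
    have := log_le_two_sqrt hℓ0
    nlinarith [Real.mul_self_sqrt hℓ0.le]
  have hk1 : 1 ≤ ⌊r⌋₊ := Nat.le_floor (by norm_num; linarith)
  have hfl := Nat.floor_le (show 0 ≤ r by linarith)
  have hfl2 := Nat.lt_floor_add_one r
  refine ⟨hk1, ?_, ?_⟩
  · rw [show ℓ / Real.log ℓ / 4 = r / 2 by rw [hr]; ring]
    linarith
  · have hk : (1 : ℝ) ≤ (⌊r⌋₊ : ℝ) := by exact_mod_cast hk1
    have hkℓ : (⌊r⌋₊ : ℝ) ≤ ℓ := hfl.trans (by
      rw [hr]; exact div_le_self hℓ0.le (by linarith))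
    have hs1 : 1 ≤ Real.sqrt (⌊r⌋₊ : ℝ) := Real.one_le_sqrt.2 hk
    have hs : (⌈Real.sqrt (⌊r⌋₊ : ℝ)⌉₊ : ℝ) ≤ Real.sqrt ℓ + 1 := by
      have := Nat.ceil_lt_add_one (Real.sqrt_nonneg (⌊r⌋₊ : ℝ))
      have := Real.sqrt_le_sqrt hkℓ
      linarith
    have hlog : Real.log (2 * (⌈Real.sqrt (⌊r⌋₊ : ℝ)⌉₊ : ℝ) + 1) ≤ 2 * Real.log ℓ := by
      rw [show (2 : ℝ) * Real.log ℓ = ((2 : ℕ) : ℝ) * Real.log ℓ by norm_num, ← Real.log_pow]
      refine Real.log_le_log (by positivity) ?_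
      have : Real.sqrt ℓ ≤ ℓ := Real.sqrt_le_iff.2 ⟨hℓ0.le, by nlinarith⟩
      nlinarith
    calc _ ≤ r * (2 * Real.log ℓ) := mul_le_mul hfl hlog (Real.log_nonneg (by
          have : (0 : ℝ) ≤ (⌈Real.sqrt (⌊r⌋₊ : ℝ)⌉₊ : ℝ) := by positivity
          linarith)) (by linarith)
      _ = ℓ := by rw [hr]; field_simp

/-- Hard configurations of every large size. -/
theorem hard_points {p D : ℝ} (hp : 2 < p) (hD : 1 ≤ D) :
    ∃ c : ℝ, 0 < c ∧ ∀ᶠ n : ℕ in atTop, ∃ (α : Type) (_ : MeasurableSpace α) (μ : Measure α)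
      (x : Fin n → Lp ℝ (ENNReal.ofReal p) μ), Function.Injective x ∧
      ∀ (d : ℕ) (f : Fin n → Fin d → ℝ) (s : ℝ), 0 < s →
        (∀ i j, s * dist (x i) (x j) ≤ (∑ b, |f i b - f j b| ^ p) ^ (1 / p) ∧
          (∑ b, |f i b - f j b| ^ p) ^ (1 / p) ≤ D * s * dist (x i) (x j)) →
        c * (Real.log n / Real.log (Real.log n)) ^ (p / 2) ≤ d := by
  have hp0 : 0 < p := by linarith
  have hD0 : 0 < D := by linarith
  have hw := clipSpread_pos
  have hC := lowerConst_pos p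
  refine ⟨(clipSpread / 4) ^ (p / 2) / (lowerConst p * D ^ p), by positivity, ?_⟩
  filter_upwards [(Real.tendsto_log_atTop.comp tendsto_natCast_atTop_atTop).eventually_ge_atTop 64,
    eventually_ge_atTop 2] with n hn hn2
  have hnR : (0 : ℝ) < n := by exact_mod_cast (show 0 < n by omega)
  obtain ⟨hk1, hk4, hkn⟩ := dimension_choice hn
  simp only [Function.comp_apply] at hn hk1 hk4 hkn
  generalize hk : ⌊Real.log n / (2 * Real.log (Real.log n))⌋₊ = k at hk1 hk4 hkn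
  obtain ⟨s, hs⟩ : ∃ s, s = ⌈Real.sqrt (k : ℝ)⌉₊ := ⟨_, rfl⟩
  rw [← hs] at hkn
  have hks : Real.sqrt k ≤ (s : ℝ) := hs ▸ Nat.le_ceil _
  have hs0 : 0 < s := by
    rw [hs, Nat.ceil_pos, Real.sqrt_pos]; exact_mod_cast hk1
  have hcard : Fintype.card (Fin k → Fin (2 * s + 1)) ≤ n := by
    rw [Fintype.card_fun, Fintype.card_fin, Fintype.card_fin]
    suffices h : ((2 * s + 1 : ℕ) : ℝ) ^ k ≤ n by exact_mod_cast h
    have hb : (0 : ℝ) < ((2 * s + 1 : ℕ) : ℝ) := by positivity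
    rw [← Real.log_le_log_iff (pow_pos hb k) hnR, Real.log_pow]
    push_cast
    exact hkn
  obtain ⟨e⟩ : Nonempty ((Fin k → Fin (2 * s + 1)) ↪ Fin n) :=
    Function.Embedding.nonempty_of_card_le (by simpa using hcard)
  classical
  obtain ⟨pt, hpt⟩ : ∃ pt : Fin n → EuclideanSpace ℝ (Fin k), pt = fun i =>
      if h : ∃ j, e j = i then gridPt s h.choose
      else EuclideanSpace.single ⟨0, hk1⟩ ((i : ℕ) + 2 : ℝ) := ⟨_, rfl⟩
  have hs' : (0 : ℝ) < s := by exact_mod_cast hs0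
  have hle1 : ∀ (j : Fin k → Fin (2 * s + 1)) c, gridPt s j c ≤ 1 := fun j c => by
    rw [gridPt_apply, sub_le_iff_le_add, div_le_iff₀ hs']
    have : ((j c : ℕ) : ℝ) ≤ ((2 * s : ℕ) : ℝ) := by exact_mod_cast Nat.lt_succ_iff.1 (j c).isLt
    push_cast at this
    linarith
  have hgrid : ∀ j, pt (e j) = gridPt s j := fun j => by
    have h : ∃ j', e j' = e j := ⟨j, rfl⟩
    rw [hpt]
    simp only [dif_pos h]
    rw [e.injective h.choose_spec]
  have hout : ∀ i, (¬ ∃ j, e j = i) → pt i ⟨0, hk1⟩ = (i : ℕ) + 2 := fun i h => by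
    rw [hpt]; simp only [dif_neg h]; simp
  have hptinj : Function.Injective pt := by
    intro a b hab
    have h0 : pt a ⟨0, hk1⟩ = pt b ⟨0, hk1⟩ := by rw [hab]
    by_cases ha : ∃ j, e j = a <;> by_cases hb : ∃ j, e j = b
    · obtain ⟨j, rfl⟩ := ha
      obtain ⟨j', rfl⟩ := hb
      rw [hgrid, hgrid] at hab
      refine congrArg e (funext fun c => Fin.ext ?_)
      have := congrArg (fun v : EuclideanSpace ℝ (Fin k) => v c) hab
      simp only [gridPt_apply, sub_left_inj, div_left_inj' hs'.ne'] at this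
      exact_mod_cast this
    · obtain ⟨j, rfl⟩ := ha
      rw [hgrid, hout b hb] at h0
      have := hle1 j ⟨0, hk1⟩
      linarith [Nat.cast_nonneg (α := ℝ) (b : ℕ)]
    · obtain ⟨j, rfl⟩ := hb
      rw [hgrid, hout a ha] at h0
      have := hle1 j ⟨0, hk1⟩
      linarith [Nat.cast_nonneg (α := ℝ) (a : ℕ)]
    · rw [hout a ha, hout b hb, add_left_inj] at h0
      exact Fin.ext (Nat.cast_injective h0)
  have : Fact (1 ≤ ENNReal.ofReal p) := ⟨by simp; linarith⟩
  have hiso : ∀ i j, dist (toGauss p (pt i)) (toGauss p (pt j)) = dist (pt i) (pt j) := fun i j =>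
    dist_toGauss (by linarith) _ _
  refine ⟨EuclideanSpace ℝ (Fin k), inferInstance, stdGaussian _, fun i => toGauss p (pt i),
    fun a b h => hptinj (dist_eq_zero.1 (by rw [← hiso]; simp only at h; rw [h, dist_self])), ?_⟩
  intro d f σ hσ hf
  simp only [hiso] at hf
  have hd : 0 < d := by
    rcases Nat.eq_zero_or_pos d with rfl | h
    · have h01 : pt ⟨0, by omega⟩ ≠ pt ⟨1, hn2⟩ := fun h => by simpa using hptinj h
      have := (hf ⟨0, by omega⟩ ⟨1, hn2⟩).1
      simp only [Finset.univ_eq_empty, Finset.sum_empty,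
        Real.zero_rpow (one_div_ne_zero hp0.ne')] at this
      nlinarith [dist_pos.2 h01]
    · exact h
  have key := grid_lower (k := k) (p := p) hp.le hD hs0 hks hd (fun j => f (e j)) hσ
    fun i j => by simpa only [hgrid] using hf (e i) (e j)
  have hA : 0 ≤ Real.log n / Real.log (Real.log n) :=
    div_nonneg (by linarith) (Real.log_nonneg (by linarith))
  rw [div_mul_eq_mul_div, div_le_iff₀ (by positivity), mul_comm (d : ℝ)]
  refine le_trans ?_ key
  rw [← Real.mul_rpow (by positivity) hA]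
  refine Real.rpow_le_rpow (mul_nonneg (by positivity) hA) ?_ (by linarith)
  calc clipSpread / 4 * (Real.log n / Real.log (Real.log n))
      = clipSpread * (Real.log n / Real.log (Real.log n) / 4) := by ring
    _ ≤ clipSpread * k := mul_le_mul_of_nonneg_left hk4 hw.le
    _ = _ := mul_comm _ _

/-- The bound eventually beats every multiple of the logarithm. -/
theorem beats_log {p c : ℝ} (hp : 2 < p) (hc : 0 < c) (C : ℝ) :
    ∀ᶠ n : ℕ in atTop, C * Real.log n < c * (Real.log n / Real.log (Real.log n)) ^ (p / 2) := by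
  have hε : 0 < c / (|C| + 1) := by positivity
  have h := (isLittleO_log_rpow_rpow_atTop (p / 2) (show 0 < p / 2 - 1 by linarith)).bound hε
  filter_upwards [(Real.tendsto_log_atTop.comp tendsto_natCast_atTop_atTop).eventually h,
    (Real.tendsto_log_atTop.comp tendsto_natCast_atTop_atTop).eventually_gt_atTop 1] with n hn h1
  simp only [Function.comp_apply] at hn h1
  generalize Real.log n = ℓ at hn h1
  have hL : 0 < Real.log ℓ := Real.log_pos h1
  rw [Real.norm_of_nonneg (Real.rpow_nonneg hL.le _),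
    Real.norm_of_nonneg (Real.rpow_nonneg (by linarith) _), Real.rpow_sub_one (by linarith)] at hn
  have hLq : 0 < Real.log ℓ ^ (p / 2) := by positivity
  rw [Real.div_rpow (by linarith) hL.le, mul_div_assoc', lt_div_iff₀ hLq]
  have h2 : (|C| + 1) * ℓ * Real.log ℓ ^ (p / 2) ≤ c * ℓ ^ (p / 2) := by
    refine (mul_le_mul_of_nonneg_left hn (by positivity)).trans (le_of_eq ?_)
    have : ℓ ≠ 0 := by linarith
    field_simp
  have h3 : C * ℓ * Real.log ℓ ^ (p / 2) ≤ |C| * ℓ * Real.log ℓ ^ (p / 2) :=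
    mul_le_mul_of_nonneg_right (mul_le_mul_of_nonneg_right (le_abs_self C) (by linarith)) hLq.le
  nlinarith [mul_pos (show 0 < ℓ by linarith) hLq]

end Vale.Agent.P249.Lower
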